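import Vale.Agent.P281.H485.K.F2
import Vale.Agent.P281.H64.TU.Spec

/-!
# P281, project T-U, block U4b (helper485): the normalised functionals
-/

open Set Filter Metric MeasureTheory Matrix
open scoped Topology ContDiff ComplexConjugate ComplexOrder ENNReal NNReal

set_option linter.unusedSectionVars false

noncomputable section

namespace Vale.Agent.P281.H485.U

open Vale.Agent.P281.H64.TK Vale.Agent.P272.K Vale.Agent.P281.H485.K
open Vale.Agent.P281.H383 (rho ww Dat mat mat_apply inner_mat eq_of_im' dot_ww eq_of_re)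
open Vale.Agent.P281.H64.TU (NormStmt)

section
variable {n g : ℕ} (C : Fin n → Fin g → ℂ)

/-- `rho` as a linear map. -/
def rhoL : (Fin g → ℂ) →ₗ[ℝ] (Fin n → ℝ) where
  toFun := rho C
  map_add' s t := by
    ext k
    simp only [rho, Pi.add_apply, add_mul, Finset.sum_add_distrib, Complex.add_re]
  map_smul' a s := by
    ext k
    simp only [rho, Pi.smul_apply, smul_eq_mul, RingHom.id_apply, Complex.real_smul, mul_assoc]
    rw [← Finset.mul_sum, Complex.re_ofReal_mul]

theorem rho_surj (hn : n = 2 * g) (hw : Function.Surjective (ww C)) (a : Fin n → ℝ) :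
    ∃ s, rho C s = a := by
  have hinj : Function.Injective (rhoL C) := by
    rw [← LinearMap.ker_eq_bot, LinearMap.ker_eq_bot']
    intro s hs
    have h1 : ∀ t : Fin g → ℂ, (t ⬝ᵥ s).re = (t ⬝ᵥ 0).re := by
      intro t
      obtain ⟨x, hx⟩ := hw t
      have h2 := dot_ww C s x
      have h3 : rho C s = 0 := hs
      rw [h3, zero_dotProduct, hx] at h2
      rw [dotProduct_comm, h2, dotProduct_zero, Complex.zero_re]
    exact eq_of_re h1
  have hd : Module.finrank ℝ (Fin g → ℂ) = Module.finrank ℝ (Fin n → ℝ) := by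
    rw [Module.finrank_fin_fun, Module.finrank_pi_fintype]
    simp [hn, mul_comm]
  exact (LinearMap.injective_iff_surjective_of_finrank_eq_finrank hd).1 hinj a

end

variable {d : ℕ} {E Γ : Type} [TopologicalSpace E] [Group Γ] [MulAction Γ E] {S : Sheets d E Γ}
  {w : Fin S.N → Cm d → Matrix (Fin d) (Fin d) ℂ}

theorem dat_of' (H : E1Concl S w) {n g : ℕ} (M : H64.Mark Γ n) {B : Matrix (Fin n) (Fin n) ℝ}
    {F : E → Fin g → ℂ} {c : Γ → Fin g → ℂ} (hB : HasForm S w M B)
    (hF : IsBas S F c) (hs : ∀ a, ∃ s, rho (fun k => c (M.g k)) s = a) :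
    Dat (fun k => c (M.g k)) (gram S w F) B := by
  refine ⟨gram_herm H hF.add, fun s hs => ?_, fun s => ?_, fun s s' => ?_, hs⟩
  · rw [← herm_sum_sum H hF.add] at hs
    exact hF.indep s (H.pos (add_sum hF.add s) hs)
  · rw [← herm_sum_sum H hF.add]
    exact H.nonneg (add_sum hF.add s)
  · rw [← herm_sum_sum H hF.add, hB _ _ _ _ (add_sum hF.add s) (add_sum hF.add s')]
    simp only [dotProduct, mulVec, rho, Finset.mul_sum]
    exact Finset.sum_congr rfl fun k _ => Finset.sum_congr rfl fun l _ => by ring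

/-- The coefficients of `m`. -/
def cf1 {g : ℕ} (m : EuclideanSpace ℂ (Fin g) →L[ℂ] ℂ) (j : Fin g) : ℂ :=
  m (WithLp.toLp 2 (Pi.single j 1))

theorem m_toLp1 {g : ℕ} (m : EuclideanSpace ℂ (Fin g) →L[ℂ] ℂ) (u : Fin g → ℂ) :
    m (WithLp.toLp 2 u) = cf1 m ⬝ᵥ u := by
  have h1 : (WithLp.toLp 2 u : EuclideanSpace ℂ (Fin g)) =
      ∑ j, u j • (WithLp.toLp 2 (Pi.single j 1) : EuclideanSpace ℂ (Fin g)) := by
    ext b
    simp [Pi.single_apply]
  rw [h1, map_sum]
  refine Finset.sum_congr rfl fun j _ => ?_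
  rw [map_smul, smul_eq_mul, mul_comm]
  rfl

theorem cf1_le {g : ℕ} {m : EuclideanSpace ℂ (Fin g) →L[ℂ] ℂ} (hm : ‖m‖ ≤ 1) :
    ∑ j, ‖cf1 m j‖ ^ 2 ≤ 1 := by
  set N := ∑ j, ‖cf1 m j‖ ^ 2 with hN
  have h0 : 0 ≤ N := Finset.sum_nonneg fun j _ => by positivity
  have h1 : m (WithLp.toLp 2 (star (cf1 m))) = (N : ℂ) := by
    rw [m_toLp1, hN]
    simp only [dotProduct, Pi.star_apply]
    push_cast
    refine Finset.sum_congr rfl fun i _ => ?_
    have := Complex.mul_conj (cf1 m i)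
    rw [Complex.normSq_eq_norm_sq] at this
    push_cast at this
    exact this
  have h2 : ‖(WithLp.toLp 2 (star (cf1 m)) : EuclideanSpace ℂ (Fin g))‖ ^ 2 = N := by
    rw [EuclideanSpace.norm_sq_eq]
    exact Finset.sum_congr rfl fun j _ => by rw [PiLp.toLp_apply, Pi.star_apply, norm_star]
  have h3 : N ≤ ‖(WithLp.toLp 2 (star (cf1 m)) : EuclideanSpace ℂ (Fin g))‖ := by
    have h4 := m.le_of_opNorm_le hm (WithLp.toLp 2 (star (cf1 m)))
    rw [h1, Complex.norm_real, Real.norm_of_nonneg h0, one_mul] at h4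
    exact h4
  by_contra h4
  push Not at h4
  have h5 : N ^ 2 ≤ N := by
    calc N ^ 2 ≤ ‖(WithLp.toLp 2 (star (cf1 m)) : EuclideanSpace ℂ (Fin g))‖ ^ 2 :=
          pow_le_pow_left₀ h0 h3 2
      _ = N := h2
  nlinarith

/-- **U4b** -/
theorem norm1 (e1 : E1Stmt) : NormStmt := by
  intro d E Γ _ _ _ _ _ _ S w n g M B F c hd hw hn hB hF π hπ G hG m hm
  have H := e1 d E Γ S w hd hw
  have hww : ∀ x, π x = WithLp.toLp 2 (ww (fun k => c (M.g k)) x) := fun x => hπ x
  have hws : Function.Surjective (ww (fun k => c (M.g k))) := by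
    intro v
    obtain ⟨x, hx⟩ := π.surjective (WithLp.toLp 2 v)
    rw [hww] at hx
    exact ⟨x, (WithLp.toLp_injective 2) hx⟩
  have D := dat_of' H M hB hF (rho_surj _ hn hws)
  let G' : EuclideanSpace ℂ (Fin g) →ₗ[ℂ] EuclideanSpace ℂ (Fin g) := G.toLinearEquiv
  have h1 : (mat G')ᴴ * mat G' = (gram S w F)⁻¹ := by
    refine eq_of_im' fun u u' => ?_
    obtain ⟨x, hx⟩ := π.surjective (WithLp.toLp 2 u)
    obtain ⟨x', hx'⟩ := π.surjective (WithLp.toLp 2 u')
    have h2 := hG x x'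
    rw [D.key, hx, hx'] at h2
    rw [hww] at hx hx'
    rw [(WithLp.toLp_injective 2) hx, (WithLp.toLp_injective 2) hx'] at h2
    rw [← h2, ← inner_mat]
    rfl
  have h2 : mat G' * gram S w F * (mat G')ᴴ = 1 := by
    have h3 : gram S w F * (mat G')ᴴ * mat G' = 1 := by
      rw [Matrix.mul_assoc, h1, Matrix.mul_nonsing_inv _ D.unitH]
    rw [Matrix.mul_assoc]
    exact mul_eq_one_comm.1 h3
  -- the function
  set s : Fin g → ℂ := cf1 m ᵥ* mat G' with hs
  have h3 : ∀ e, m (G (WithLp.toLp 2 (F e))) = ∑ j, s j * F e j := by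
    intro e
    have h4 : G (WithLp.toLp 2 (F e)) = WithLp.toLp 2 (mat G' *ᵥ F e) := mat_apply G' (F e)
    rw [h4, m_toLp1, Matrix.dotProduct_mulVec]
    rfl
  simp only [h3]
  rw [herm_sum_sum H hF.add]
  have h4 : s ⬝ᵥ gram S w F *ᵥ star s = cf1 m ⬝ᵥ star (cf1 m) := by
    rw [hs, Matrix.star_vecMul, Matrix.dotProduct_mulVec, Matrix.vecMul_vecMul,
      ← Matrix.dotProduct_mulVec, Matrix.mulVec_mulVec, h2, Matrix.one_mulVec]
  rw [h4]
  have h5 : cf1 m ⬝ᵥ star (cf1 m) = ((∑ j, ‖cf1 m j‖ ^ 2 : ℝ) : ℂ) := by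
    simp only [dotProduct, Pi.star_apply]
    push_cast
    refine Finset.sum_congr rfl fun i _ => ?_
    have := Complex.mul_conj (cf1 m i)
    rw [Complex.normSq_eq_norm_sq] at this
    push_cast at this
    exact this
  rw [h5, Complex.ofReal_re]
  exact cf1_le hm

end Vale.Agent.P281.H485.U
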