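import Vale.Agent.P281.H864.K.Herm

/-!
# P281, project T-U, block U4 (helper485): the density of the energy in tame coordinates
-/

open Set Filter Metric MeasureTheory Matrix
open scoped Topology ContDiff ComplexConjugate ComplexOrder ENNReal NNReal

set_option linter.unusedSectionVars false

noncomputable section

namespace Vale.Agent.P281.H485.U

open Vale.Agent.P281.H64.TK Vale.Agent.P272.K Vale.Agent.P281.H864.K

variable {d : ℕ}

/-- `hd` of a diagonal matrix. -/
theorem hd_diag (l : Fin d → ℝ) (hl : ∀ i, 0 < l i) (b : Fin d → ℂ) :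
    hd (Matrix.diagonal fun i => (l i : ℂ)) b b =
      ((∑ i, (∏ j ∈ Finset.univ.erase i, l j) * ‖b i‖ ^ 2 : ℝ) : ℂ) := by
  have h1 : (Matrix.diagonal fun i => (l i : ℂ))⁻¹ = Matrix.diagonal fun i => ((l i : ℂ))⁻¹ := by
    refine Matrix.inv_eq_right_inv ?_
    rw [Matrix.diagonal_mul_diagonal, ← Matrix.diagonal_one]
    congr 1
    ext i
    exact mul_inv_cancel₀ (by exact_mod_cast (hl i).ne')
  rw [hd_eq, Matrix.det_diagonal, h1]
  simp only [dotProduct, Matrix.mulVec_diagonal, Pi.star_apply, Finset.mul_sum]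
  push_cast
  refine Finset.sum_congr rfl fun i _ => ?_
  rw [← Finset.mul_prod_erase Finset.univ (fun i => (l i : ℂ)) (Finset.mem_univ i)]
  have h2 : (l i : ℂ) ≠ 0 := by exact_mod_cast (hl i).ne'
  have h3 : star (b i) * b i = (‖b i‖ : ℂ) ^ 2 := by
    rw [mul_comm]
    have := Complex.mul_conj (b i)
    rw [Complex.normSq_eq_norm_sq] at this
    push_cast at this
    exact this
  rw [← h3]
  field_simp

theorem hd_diag_ge (l : Fin d → ℝ) {c : ℝ} (hc : 0 < c) (hl : ∀ i, c ≤ l i) (b : Fin d → ℂ) :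
    c ^ (d - 1) * ∑ i, ‖b i‖ ^ 2 ≤ (hd (Matrix.diagonal fun i => (l i : ℂ)) b b).re := by
  rw [hd_diag l (fun i => hc.trans_le (hl i)), Complex.ofReal_re, Finset.mul_sum]
  refine Finset.sum_le_sum fun i _ => mul_le_mul_of_nonneg_right ?_ (by positivity)
  calc c ^ (d - 1) = ∏ _j ∈ Finset.univ.erase i, c := by
        rw [Finset.prod_const, Finset.card_erase_of_mem (Finset.mem_univ i), Finset.card_univ,
          Fintype.card_fin]
    _ ≤ _ := Finset.prod_le_prod (fun _ _ => hc.le) fun j _ => hl j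

theorem star_dot_self (x : Fin d → ℂ) : star x ⬝ᵥ x = ((∑ i, ‖x i‖ ^ 2 : ℝ) : ℂ) := by
  simp only [dotProduct, Pi.star_apply]
  push_cast
  refine Finset.sum_congr rfl fun i _ => ?_
  rw [mul_comm]
  have := Complex.mul_conj (x i)
  rw [Complex.normSq_eq_norm_sq] at this
  push_cast at this
  exact this

/-- The energy density in tame coordinates. -/
theorem hd_ge {W : Matrix (Fin d) (Fin d) ℂ} (hW : W.PosDef) {c : ℝ} (hc : 0 < c)
    (h : ∀ ξ : Fin d → ℂ, c * ∑ k, ‖ξ k‖ ^ 2 ≤ (star ξ ⬝ᵥ (W *ᵥ ξ)).re) (a : Fin d → ℂ) :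
    c ^ (d - 1) * ∑ i, ‖a i‖ ^ 2 ≤ (hd W a a).re := by
  have hA := hW.isHermitian
  set l := hA.eigenvalues with hl
  have hlc : ∀ i, c ≤ l i := by
    intro i
    have h1 := h (hA.eigenvectorBasis i)
    rw [hA.mulVec_eigenvectorBasis, dotProduct_smul, star_dot_self] at h1
    have h2 : ∑ k, ‖hA.eigenvectorBasis i k‖ ^ 2 = 1 := by
      rw [← EuclideanSpace.norm_sq_eq, hA.eigenvectorBasis.orthonormal.1 i, one_pow]
    rw [h2, mul_one, Complex.real_smul, Complex.ofReal_one, mul_one, Complex.ofReal_re] at h1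
    exact h1
  set U : Matrix (Fin d) (Fin d) ℂ := (hA.eigenvectorUnitary : Matrix (Fin d) (Fin d) ℂ) with hU
  have hUU : U * star U = 1 := Unitary.mul_star_self_of_mem hA.eigenvectorUnitary.2
  have hUU' : star U * U = 1 := Unitary.star_mul_self_of_mem hA.eigenvectorUnitary.2
  have hsp : W = U.transpose.transpose * (Matrix.diagonal fun i => (l i : ℂ)) *
      (U.transpose).map conj := by
    have h1 := hA.spectral_theorem
    rw [Unitary.conjStarAlgAut_apply] at h1
    rw [Matrix.transpose_transpose]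
    exact h1
  have hdet : U.transpose.det ≠ 0 := by
    intro h0
    rw [Matrix.det_transpose] at h0
    have := congrArg Matrix.det hUU
    rw [Matrix.det_mul, h0, zero_mul, Matrix.det_one] at this
    exact zero_ne_one this
  have hdet1 : ‖U.transpose.det‖ ^ 2 = 1 := by
    rw [Matrix.det_transpose]
    have h1 := congrArg Matrix.det hUU
    rw [Matrix.det_mul, Matrix.det_one, Matrix.star_eq_conjTranspose, Matrix.det_conjTranspose] at h1
    have h2 := Complex.mul_conj U.det
    have h3 : (starRingEnd ℂ) U.det = star U.det := rfl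
    rw [h3, h1, Complex.normSq_eq_norm_sq] at h2
    exact_mod_cast h2.symm
  -- `a = b ᵥ* Uᵀ`
  set b : Fin d → ℂ := star U *ᵥ a with hb
  have hab : b ᵥ* U.transpose = a := by
    rw [Matrix.vecMul_transpose, hb, Matrix.mulVec_mulVec, hUU, Matrix.one_mulVec]
  have h1 := hd_change (W := Matrix.diagonal fun i => (l i : ℂ)) hdet b b
  rw [hab, ← hsp, hdet1] at h1
  have h2 : ∑ i, ‖b i‖ ^ 2 = ∑ i, ‖a i‖ ^ 2 := by
    have h3 : star b ⬝ᵥ b = star a ⬝ᵥ a := by
      rw [hb, Matrix.star_mulVec, ← Matrix.dotProduct_mulVec, Matrix.mulVec_mulVec]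
      have h4 : (star U)ᴴ = U := by
        rw [Matrix.star_eq_conjTranspose, Matrix.conjTranspose_conjTranspose]
      rw [h4, hUU, Matrix.one_mulVec]
    rw [star_dot_self, star_dot_self] at h3
    exact_mod_cast h3
  rw [h1, Complex.ofReal_one, one_mul, ← h2]
  exact hd_diag_ge l hc hlc b

end Vale.Agent.P281.H485.U
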